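import Mathlib

/-!
Basic Fourier analysis on the Boolean cube `Fin n → Bool`, used by several hand-ins.
A point `x` is identified with the sign vector `i ↦ if x i then 1 else -1`.
-/

namespace Vale.Agent.BooleanCube

open Finset

variable {n : ℕ}

/-- The sign attached to a Boolean value. -/
def sgn (b : Bool) : ℝ := if b then 1 else -1

/-- The Walsh character of the set `S`. -/
def chi (S : Finset (Fin n)) (x : Fin n → Bool) : ℝ := ∏ i ∈ S, sgn (x i)

/-- The Fourier coefficient of `f` at `S`: the average of `f · chi S`. -/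
noncomputable def coeff (f : (Fin n → Bool) → ℝ) (S : Finset (Fin n)) : ℝ :=
  (∑ x, f x * chi S x) / 2 ^ n

/-- Flip the coordinate `i`. -/
def flip (i : Fin n) (x : Fin n → Bool) : Fin n → Bool := Function.update x i (!x i)

lemma sgn_sq (b : Bool) : sgn b * sgn b = 1 := by
  cases b <;> simp [sgn]

lemma sgn_not (b : Bool) : sgn (!b) = - sgn b := by
  cases b <;> simp [sgn]

lemma sgn_ne_zero (b : Bool) : sgn b ≠ 0 := by
  cases b <;> simp [sgn]

lemma flip_flip (i : Fin n) (x : Fin n → Bool) : flip i (flip i x) = x := by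
  funext j
  by_cases h : j = i
  · subst h; simp [flip]
  · simp [flip, Function.update_of_ne h]

/-- Flipping a coordinate as an equivalence of the cube. -/
def flipEquiv (i : Fin n) : (Fin n → Bool) ≃ (Fin n → Bool) where
  toFun := flip i
  invFun := flip i
  left_inv := flip_flip i
  right_inv := flip_flip i

lemma sum_flip (i : Fin n) (g : (Fin n → Bool) → ℝ) : ∑ x, g (flip i x) = ∑ x, g x :=
  Equiv.sum_comp (flipEquiv i) g

lemma chi_flip_mem {S : Finset (Fin n)} {i : Fin n} (h : i ∈ S) (x : Fin n → Bool) :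
    chi S (flip i x) = - chi S x := by
  unfold chi
  rw [← Finset.insert_erase h, Finset.prod_insert (Finset.notMem_erase i S),
    Finset.prod_insert (Finset.notMem_erase i S)]
  have h1 : ∀ j ∈ S.erase i, sgn (flip i x j) = sgn (x j) := by
    intro j hj
    have : j ≠ i := (Finset.mem_erase.mp hj).1
    simp [flip, Function.update_of_ne this]
  rw [Finset.prod_congr rfl h1]
  simp [flip, sgn_not]

lemma chi_flip_notMem {S : Finset (Fin n)} {i : Fin n} (h : i ∉ S) (x : Fin n → Bool) :
    chi S (flip i x) = chi S x := by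
  unfold chi
  apply Finset.prod_congr rfl
  intro j hj
  have : j ≠ i := fun e => h (e ▸ hj)
  simp [flip, Function.update_of_ne this]

lemma chi_mul_self (S : Finset (Fin n)) (x : Fin n → Bool) : chi S x * chi S x = 1 := by
  unfold chi
  rw [← Finset.prod_mul_distrib]
  exact Finset.prod_eq_one (fun i _ => sgn_sq _)

lemma chi_abs (S : Finset (Fin n)) (x : Fin n → Bool) : |chi S x| = 1 := by
  have h := chi_mul_self S x
  have : |chi S x| * |chi S x| = 1 := by rw [← abs_mul, h]; simp
  nlinarith [abs_nonneg (chi S x)]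

/-- The dual orthogonality relation. -/
lemma sum_chi_mul_chi (x y : Fin n → Bool) :
    ∑ S : Finset (Fin n), chi S x * chi S y = if x = y then (2:ℝ) ^ n else 0 := by
  have h : ∀ S : Finset (Fin n), chi S x * chi S y = ∏ i ∈ S, (sgn (x i) * sgn (y i)) := by
    intro S; unfold chi; rw [Finset.prod_mul_distrib]
  simp_rw [h]
  have h2 : ∑ S : Finset (Fin n), ∏ i ∈ S, (sgn (x i) * sgn (y i)) =
      ∏ i : Fin n, (1 + sgn (x i) * sgn (y i)) := by
    rw [Finset.prod_one_add, Finset.powerset_univ]
  rw [h2]
  split_ifs with hxy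
  · subst hxy
    have : ∀ i : Fin n, (1 + sgn (x i) * sgn (x i)) = 2 := by
      intro i; rw [sgn_sq]; norm_num
    simp [this]
  · obtain ⟨i, hi⟩ : ∃ i, x i ≠ y i := by
      by_contra hcon
      exact hxy (funext (fun i => by_contra (fun h => hcon ⟨i, h⟩)))
    apply Finset.prod_eq_zero (Finset.mem_univ i)
    cases hx : x i <;> cases hy : y i <;> simp_all [sgn]

/-- Parseval's identity. -/
lemma parseval (g : (Fin n → Bool) → ℝ) :
    ∑ S : Finset (Fin n), coeff g S ^ 2 = (∑ x, g x ^ 2) / 2 ^ n := by
  have hpow : (2:ℝ) ^ n ≠ 0 := by positivity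
  have key : ∑ S : Finset (Fin n), (∑ x, g x * chi S x) * (∑ y, g y * chi S y)
      = (2:ℝ) ^ n * ∑ x, g x ^ 2 := by
    calc ∑ S : Finset (Fin n), (∑ x, g x * chi S x) * (∑ y, g y * chi S y)
        = ∑ S : Finset (Fin n), ∑ x, ∑ y, g x * g y * (chi S x * chi S y) := by
          apply Finset.sum_congr rfl
          intro S _
          rw [Finset.sum_mul_sum]
          apply Finset.sum_congr rfl; intro x _
          apply Finset.sum_congr rfl; intro y _
          ring
      _ = ∑ x, ∑ y, g x * g y * ∑ S : Finset (Fin n), (chi S x * chi S y) := by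
          rw [Finset.sum_comm]
          apply Finset.sum_congr rfl; intro x _
          rw [Finset.sum_comm]
          apply Finset.sum_congr rfl; intro y _
          rw [Finset.mul_sum]
      _ = ∑ x, g x * g x * (2:ℝ) ^ n := by
          apply Finset.sum_congr rfl; intro x _
          simp_rw [sum_chi_mul_chi]
          simp
      _ = (2:ℝ) ^ n * ∑ x, g x ^ 2 := by
          rw [Finset.mul_sum]
          apply Finset.sum_congr rfl; intro x _
          ring
  unfold coeff
  have : ∀ S : Finset (Fin n), ((∑ x, g x * chi S x) / (2:ℝ) ^ n) ^ 2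
      = (∑ x, g x * chi S x) * (∑ y, g y * chi S y) / ((2:ℝ) ^ n * (2:ℝ) ^ n) := by
    intro S; rw [div_pow]; ring
  simp_rw [this]
  rw [← Finset.sum_div, key]
  field_simp

/-- The discrete derivative of `f` in direction `i`. -/
noncomputable def deriv (f : (Fin n → Bool) → ℝ) (i : Fin n) (x : Fin n → Bool) : ℝ :=
  (f x - f (flip i x)) / 2

lemma coeff_deriv_mem (f : (Fin n → Bool) → ℝ) {i : Fin n} {S : Finset (Fin n)} (h : i ∈ S) :
    coeff (deriv f i) S = coeff f S := by
  unfold coeff deriv
  congr 1
  have h1 : ∑ x, f (flip i x) * chi S x = - ∑ x, f x * chi S x := by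
    have := sum_flip i (fun x => f x * chi S (flip i x))
    simp only [flip_flip] at this
    rw [this, ← Finset.sum_neg_distrib]
    apply Finset.sum_congr rfl; intro x _
    rw [chi_flip_mem h]; ring
  have h2 : ∑ x, (f x - f (flip i x)) / 2 * chi S x
      = (∑ x, f x * chi S x - ∑ x, f (flip i x) * chi S x) / 2 := by
    rw [← Finset.sum_sub_distrib, Finset.sum_div]
    apply Finset.sum_congr rfl; intro x _; ring
  rw [h2, h1]; ring

lemma coeff_deriv_notMem (f : (Fin n → Bool) → ℝ) {i : Fin n} {S : Finset (Fin n)} (h : i ∉ S) :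
    coeff (deriv f i) S = 0 := by
  unfold coeff deriv
  have h1 : ∑ x, f (flip i x) * chi S x = ∑ x, f x * chi S x := by
    have := sum_flip i (fun x => f x * chi S (flip i x))
    simp only [flip_flip] at this
    rw [this]
    apply Finset.sum_congr rfl; intro x _
    rw [chi_flip_notMem h]
  have h2 : ∑ x, (f x - f (flip i x)) / 2 * chi S x
      = (∑ x, f x * chi S x - ∑ x, f (flip i x) * chi S x) / 2 := by
    rw [← Finset.sum_sub_distrib, Finset.sum_div]
    apply Finset.sum_congr rfl; intro x _; ring
  rw [h2, h1]; simp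

/-- `f` takes only the values `1` and `-1`. -/
def IsBoolean (f : (Fin n → Bool) → ℝ) : Prop := ∀ x, f x = 1 ∨ f x = -1

/-- The influence of `i` on `f`: the mean of the squared derivative. -/
noncomputable def influence (f : (Fin n → Bool) → ℝ) (i : Fin n) : ℝ :=
  (∑ x, deriv f i x ^ 2) / 2 ^ n

lemma influence_eq_sum (f : (Fin n → Bool) → ℝ) (i : Fin n) :
    influence f i = ∑ S : Finset (Fin n), if i ∈ S then coeff f S ^ 2 else 0 := by
  unfold influence
  rw [← parseval]
  apply Finset.sum_congr rfl
  intro S _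
  split_ifs with h
  · rw [coeff_deriv_mem f h]
  · rw [coeff_deriv_notMem f h]; simp

lemma deriv_values {f : (Fin n → Bool) → ℝ} (hf : IsBoolean f) (i : Fin n) (x : Fin n → Bool) :
    deriv f i x = 0 ∨ deriv f i x = 1 ∨ deriv f i x = -1 := by
  unfold deriv
  rcases hf x with h1 | h1 <;> rcases hf (flip i x) with h2 | h2 <;> rw [h1, h2] <;> norm_num

lemma abs_deriv_eq_sq {f : (Fin n → Bool) → ℝ} (hf : IsBoolean f) (i : Fin n)
    (x : Fin n → Bool) : |deriv f i x| = deriv f i x ^ 2 := by
  rcases deriv_values hf i x with h | h | h <;> rw [h] <;> norm_num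

/-- For Boolean `f`, a level-one coefficient is at most the influence in absolute value. -/
lemma abs_coeff_singleton_le {f : (Fin n → Bool) → ℝ} (hf : IsBoolean f) (i : Fin n) :
    |coeff f {i}| ≤ influence f i := by
  have h1 : coeff f {i} = coeff (deriv f i) {i} :=
    (coeff_deriv_mem f (Finset.mem_singleton_self i)).symm
  rw [h1]
  unfold coeff influence
  rw [abs_div]
  have hp : |(2:ℝ) ^ n| = (2:ℝ) ^ n := abs_of_pos (by positivity)
  rw [hp]
  apply div_le_div_of_nonneg_right _ (by positivity)
  calc |∑ x, deriv f i x * chi {i} x| ≤ ∑ x, |deriv f i x * chi {i} x| :=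
        Finset.abs_sum_le_sum_abs _ _
    _ = ∑ x, deriv f i x ^ 2 := by
        apply Finset.sum_congr rfl; intro x _
        rw [abs_mul, chi_abs, mul_one, abs_deriv_eq_sq hf]

/-- Total influence equals the weighted Fourier level sum. -/
lemma sum_influence (f : (Fin n → Bool) → ℝ) :
    ∑ i, influence f i = ∑ S : Finset (Fin n), (S.card : ℝ) * coeff f S ^ 2 := by
  simp_rw [influence_eq_sum]
  rw [Finset.sum_comm]
  apply Finset.sum_congr rfl
  intro S _
  have : ∑ i : Fin n, (if i ∈ S then coeff f S ^ 2 else 0)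
      = ∑ i ∈ S, coeff f S ^ 2 := by
    rw [← Finset.sum_filter]
    congr 1
    ext i; simp
  rw [this, Finset.sum_const, nsmul_eq_mul]

lemma isBoolean_parseval {f : (Fin n → Bool) → ℝ} (hf : IsBoolean f) :
    ∑ S : Finset (Fin n), coeff f S ^ 2 = 1 := by
  rw [parseval]
  have : ∀ x, f x ^ 2 = 1 := by
    intro x; rcases hf x with h | h <;> rw [h] <;> norm_num
  simp only [this]
  simp
  
end Vale.Agent.BooleanCube
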