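import Vale.Agent.Boolean.Basic

/-!
Granularity of Fourier coefficients: an integer valued function of Fourier degree at most `d`
has all Fourier coefficients in `2^(-d) ℤ`.
-/

namespace Vale.Agent.BooleanCube

open Finset

/-- Sum over the `(n+1)`-cube split according to the value of coordinate `0`. -/
lemma sum_cons {n : ℕ} (F : (Fin (n + 1) → Bool) → ℝ) :
    ∑ x, F x = ∑ y : Fin n → Bool, (F (Fin.cons true y) + F (Fin.cons false y)) := by
  rw [← Equiv.sum_comp (Fin.consEquiv (fun _ : Fin (n + 1) => Bool)) F]
  rw [Fintype.sum_prod_type]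
  simp only [Fintype.sum_bool]
  rw [Finset.sum_add_distrib]
  rfl

/-- Embedding of subsets of `Fin n` in subsets of `Fin (n+1)` avoiding `0`. -/
def liftSet {n : ℕ} (T : Finset (Fin n)) : Finset (Fin (n + 1)) := T.map (Fin.succEmb n)

lemma zero_notMem_liftSet {n : ℕ} (T : Finset (Fin n)) : (0 : Fin (n + 1)) ∉ liftSet T := by
  simp [liftSet]

lemma card_liftSet {n : ℕ} (T : Finset (Fin n)) : (liftSet T).card = T.card := by
  simp [liftSet]

lemma chi_liftSet {n : ℕ} (T : Finset (Fin n)) (b : Bool) (y : Fin n → Bool) :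
    chi (liftSet T) (Fin.cons b y : Fin (n + 1) → Bool) = chi T y := by
  simp [chi, liftSet]

lemma chi_insert_liftSet {n : ℕ} (T : Finset (Fin n)) (b : Bool) (y : Fin n → Bool) :
    chi (insert 0 (liftSet T)) (Fin.cons b y : Fin (n + 1) → Bool) = sgn b * chi T y := by
  have := chi_liftSet T b y
  unfold chi at this ⊢
  rw [Finset.prod_insert (zero_notMem_liftSet T), this]
  simp

lemma exists_lift {n : ℕ} (S : Finset (Fin (n + 1))) :
    ∃ T : Finset (Fin n), S = liftSet T ∨ S = insert 0 (liftSet T) := by
  refine ⟨S.preimage Fin.succ (Fin.succ_injective n).injOn, ?_⟩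
  by_cases h : (0 : Fin (n + 1)) ∈ S
  · right
    ext a
    refine Fin.cases ?_ (fun i => ?_) a
    · simp [h]
    · simp [liftSet, Fin.succ_ne_zero]
  · left
    ext a
    refine Fin.cases ?_ (fun i => ?_) a
    · simp [h, liftSet]
    · simp [liftSet]

/-- Restriction of a function on the `(n+1)`-cube to a value of coordinate `0`. -/
def restr {n : ℕ} (g : (Fin (n + 1) → Bool) → ℝ) (b : Bool) (y : Fin n → Bool) : ℝ :=
  g (Fin.cons b y)

lemma coeff_liftSet {n : ℕ} (g : (Fin (n + 1) → Bool) → ℝ) (T : Finset (Fin n)) :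
    coeff g (liftSet T) = (coeff (restr g true) T + coeff (restr g false) T) / 2 := by
  unfold coeff
  rw [sum_cons]
  simp_rw [chi_liftSet]
  rw [pow_succ]
  have hp : (2:ℝ) ^ n ≠ 0 := by positivity
  simp only [restr]
  rw [Finset.sum_add_distrib]
  field_simp

lemma coeff_insert_liftSet {n : ℕ} (g : (Fin (n + 1) → Bool) → ℝ) (T : Finset (Fin n)) :
    coeff g (insert 0 (liftSet T)) = (coeff (restr g true) T - coeff (restr g false) T) / 2 := by
  unfold coeff
  rw [sum_cons]
  simp_rw [chi_insert_liftSet]
  rw [pow_succ]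
  have hp : (2:ℝ) ^ n ≠ 0 := by positivity
  simp only [restr, sgn]
  simp only [if_true, Bool.false_eq_true, if_false]
  have : ∑ x : Fin n → Bool, (g (Fin.cons true x) * (1 * chi T x) + g (Fin.cons false x) * (-1 * chi T x))
      = ∑ x : Fin n → Bool, g (Fin.cons true x) * chi T x - ∑ x : Fin n → Bool, g (Fin.cons false x) * chi T x := by
    rw [← Finset.sum_sub_distrib]
    apply Finset.sum_congr rfl; intro x _; ring
  rw [this]
  field_simp

lemma coeff_sub {n : ℕ} (g h : (Fin n → Bool) → ℝ) (T : Finset (Fin n)) :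
    coeff (fun y => g y - h y) T = coeff g T - coeff h T := by
  unfold coeff
  rw [← sub_div, ← Finset.sum_sub_distrib]
  congr 1
  apply Finset.sum_congr rfl; intro x _; ring

/-- Granularity: integer valued functions of degree at most `d` have Fourier coefficients
in `2^(-d) ℤ`. -/
theorem granular : ∀ (n d : ℕ) (g : (Fin n → Bool) → ℝ),
    (∀ x, ∃ k : ℤ, g x = k) → (∀ S : Finset (Fin n), d < S.card → coeff g S = 0) →
    ∀ S : Finset (Fin n), ∃ k : ℤ, (2:ℝ) ^ d * coeff g S = k := by
  intro n
  induction n with
  | zero =>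
    intro d g hint _ S
    obtain ⟨k, hk⟩ := hint (fun _ => true)
    have hS : S = ∅ := Finset.eq_empty_of_isEmpty S
    subst hS
    refine ⟨2 ^ d * k, ?_⟩
    have : (∑ x : Fin 0 → Bool, g x * chi ∅ x) = g (fun _ => true) := by
      rw [Fintype.sum_unique]
      simp only [chi, Finset.prod_empty, mul_one]
      exact congrArg g (Subsingleton.elim _ _)
    unfold coeff
    rw [this, hk]
    push_cast
    simp
  | succ n ih =>
    intro d g hint hdeg
    have hintb : ∀ b, ∀ y, ∃ k : ℤ, restr g b y = k := fun b y => hint _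
    -- degree bounds for the restrictions
    have hdegb : ∀ T : Finset (Fin n), d < T.card →
        coeff (restr g true) T = 0 ∧ coeff (restr g false) T = 0 := by
      intro T hT
      have h0 : coeff g (liftSet T) = 0 := hdeg _ (by rw [card_liftSet]; exact hT)
      have h1 : coeff g (insert 0 (liftSet T)) = 0 := by
        apply hdeg
        rw [Finset.card_insert_of_notMem (zero_notMem_liftSet T), card_liftSet]
        omega
      rw [coeff_liftSet] at h0
      rw [coeff_insert_liftSet] at h1
      constructor <;> linarith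
    -- the difference
    set h : (Fin n → Bool) → ℝ := fun y => restr g true y - restr g false y with hh
    have hcoeffh : ∀ T, coeff h T = 2 * coeff g (insert 0 (liftSet T)) := by
      intro T
      rw [hh, coeff_sub, coeff_insert_liftSet]
      ring
    have hdegh : ∀ T : Finset (Fin n), d ≤ T.card → coeff h T = 0 := by
      intro T hT
      rw [hcoeffh, hdeg]
      · simp
      · rw [Finset.card_insert_of_notMem (zero_notMem_liftSet T), card_liftSet]
        omega
    have hinth : ∀ y, ∃ k : ℤ, h y = k := by
      intro y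
      obtain ⟨a, ha⟩ := hintb true y
      obtain ⟨b, hb⟩ := hintb false y
      refine ⟨a - b, ?_⟩
      simp [hh, ha, hb]
    -- half the coefficients of `h` are granular at level `d`
    have hhalf : ∀ T, ∃ k : ℤ, (2:ℝ) ^ d * (coeff h T / 2) = k := by
      intro T
      cases d with
      | zero =>
        refine ⟨0, ?_⟩
        rw [hdegh T (Nat.zero_le _)]
        simp
      | succ d' =>
        obtain ⟨k, hk⟩ := ih d' h hinth (fun S hS => hdegh S hS) T
        refine ⟨k, ?_⟩
        rw [← hk, pow_succ]
        ring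
    intro S
    obtain ⟨T, hT | hT⟩ := exists_lift S
    · subst hT
      obtain ⟨k1, hk1⟩ := ih d (restr g false) (hintb false)
        (fun S hS => (hdegb S hS).2) T
      obtain ⟨k2, hk2⟩ := hhalf T
      refine ⟨k1 + k2, ?_⟩
      push_cast
      rw [← hk1, ← hk2, coeff_liftSet, hh, coeff_sub]
      ring
    · subst hT
      obtain ⟨k2, hk2⟩ := hhalf T
      refine ⟨k2, ?_⟩
      rw [← hk2, hcoeffh]
      ring

/-- Granularity for Boolean valued functions: the nonconstant Fourier coefficients of a
`±1`-valued function of degree at most `d` lie in `2^(1-d) ℤ`. -/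
theorem granular_boolean {n d : ℕ} {f : (Fin n → Bool) → ℝ} (hf : IsBoolean f) (hd : 1 ≤ d)
    (hdeg : ∀ S : Finset (Fin n), d < S.card → coeff f S = 0)
    {S : Finset (Fin n)} (hS : S.Nonempty) :
    ∃ k : ℤ, (2:ℝ) ^ (d - 1) * coeff f S = k := by
  -- `g = (1 - f)/2` is `{0,1}`-valued
  set g : (Fin n → Bool) → ℝ := fun x => (1 - f x) / 2 with hg
  have hcoeff : ∀ T : Finset (Fin n), T.Nonempty → coeff g T = - coeff f T / 2 := by
    intro T hT
    obtain ⟨i, hi⟩ := hT
    -- the constant part has vanishing coefficient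
    have h0 : ∑ x, chi T x = 0 := by
      have := sum_flip i (fun x => chi T x)
      simp_rw [chi_flip_mem hi] at this
      rw [Finset.sum_neg_distrib] at this
      linarith
    unfold coeff
    have : ∑ x, g x * chi T x = - (∑ x, f x * chi T x) / 2 := by
      have h1 : ∀ x, g x * chi T x = (chi T x - f x * chi T x) / 2 := by
        intro x; simp only [hg]; ring
      simp_rw [h1]
      rw [← Finset.sum_div, Finset.sum_sub_distrib, h0]
      ring
    rw [this]
    ring
  have hint : ∀ x, ∃ k : ℤ, g x = k := by
    intro x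
    rcases hf x with h | h
    · exact ⟨0, by simp [hg, h]⟩
    · refine ⟨1, ?_⟩
      simp [hg, h]
  have hdegg : ∀ T : Finset (Fin n), d < T.card → coeff g T = 0 := by
    intro T hT
    have hne : T.Nonempty := by
      rw [← Finset.card_pos]; omega
    rw [hcoeff T hne, hdeg T hT]
    simp
  obtain ⟨k, hk⟩ := granular n d g hint hdegg S
  refine ⟨-k, ?_⟩
  rw [hcoeff S hS] at hk
  push_cast
  rw [← hk]
  obtain ⟨d', rfl⟩ : ∃ d', d = d' + 1 := ⟨d - 1, by omega⟩
  simp only [Nat.add_sub_cancel, pow_succ]
  ring

end Vale.Agent.BooleanCube
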